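import Mathlib.Combinatorics.SimpleGraph.Cayley
import Mathlib.Combinatorics.SimpleGraph.Metric
import Mathlib.Algebra.Group.Subgroup.Lattice

namespace Vale.Agent.P186

/-- All geodesic triangles of the graph `X` are `δ`-thin: every vertex on one side is within
distance `δ` of a vertex on one of the other two sides. -/
def ThinTriangles {V : Type} (X : SimpleGraph V) (δ : ℕ) : Prop :=
  ∀ (x y z : V) (p : X.Walk x y) (q : X.Walk y z) (r : X.Walk z x),
    p.length = X.dist x y → q.length = X.dist y z → r.length = X.dist z x →
    ∀ u ∈ p.support, ∃ v, (v ∈ q.support ∨ v ∈ r.support) ∧ X.dist u v ≤ δ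

/-- Word-hyperbolic group: for some finite generating set the Cayley graph has thin triangles. -/
def IsWordHyperbolic (G : Type) [Group G] : Prop :=
  ∃ S : Finset G, Subgroup.closure (S : Set G) = ⊤ ∧
    ∃ δ : ℕ, ThinTriangles (SimpleGraph.mulCayley (S : Set G)) δ

end Vale.Agent.P186
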